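import Mathlib

/-!
# The Mahler conjectures (P248): definitions

`ℝⁿ` is `Fin n → ℝ` with its Lebesgue measure `volume` and the inner product `∑ i, x i * y i`.
-/

namespace Vale.Agent.Lib.P248.Dim

open MeasureTheory
open scoped ENNReal Pointwise

/-- A convex body: a compact convex set with nonempty interior. -/
def IsConvexBody {n : ℕ} (K : Set (Fin n → ℝ)) : Prop :=
  IsCompact K ∧ Convex ℝ K ∧ (interior K).Nonempty

/-- The polar set `K° = {y : ⟨y, x⟩ ≤ 1 for all x ∈ K}`. -/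
def polar {n : ℕ} (K : Set (Fin n → ℝ)) : Set (Fin n → ℝ) :=
  {y | ∀ x ∈ K, ∑ i, y i * x i ≤ 1}

/-- The inequality of the symmetric Mahler conjecture in dimension `n`:
`|K| |K°| ≥ 4^n / n!` for every origin-symmetric convex body `K ⊆ ℝⁿ`. -/
def MahlerSym (n : ℕ) : Prop :=
  ∀ K : Set (Fin n → ℝ), IsConvexBody K → (∀ x ∈ K, -x ∈ K) →
    ENNReal.ofReal (4 ^ n / (n.factorial : ℝ)) ≤ volume K * volume (polar K)

/-- The inequality of the general Mahler conjecture in dimension `n`: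
`P(K) ≥ (n+1)^(n+1) / (n!)^2` for every convex body `K ⊆ ℝⁿ`, that is,
`|K| |(K - z)°| ≥ (n+1)^(n+1) / (n!)^2` for every convex body `K` and every interior point `z`
of `K`. -/
def MahlerGen (n : ℕ) : Prop :=
  ∀ K : Set (Fin n → ℝ), IsConvexBody K → ∀ z ∈ interior K,
    ENNReal.ofReal (((n : ℝ) + 1) ^ (n + 1) / ((n.factorial : ℝ)) ^ 2) ≤
      volume K * volume (polar ((fun x => x - z) '' K))

/-- The layer set `{(y, s) : a ≤ s ≤ b, y ∈ g(s) • B}` of `ℝⁿ⁺¹` (`s` is the last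
coordinate). -/
def layer {n : ℕ} (B : Set (Fin n → ℝ)) (a b : ℝ) (g : ℝ → ℝ) : Set (Fin (n + 1) → ℝ) :=
  {x | x (Fin.last n) ∈ Set.Icc a b ∧ Fin.init x ∈ g (x (Fin.last n)) • B}

end Vale.Agent.Lib.P248.Dim
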