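import Vale.Agent.Lib.P248.Dim.Defs

/-!
# P248: the Mahler inequalities in dimension n+1 imply those in dimension n
-/

namespace Vale.Agent.Lib.P248.Dim

open MeasureTheory
open scoped ENNReal Pointwise

/-! ### LAYA : layer sets over compact sets are compact -/

section LayA

variable {n : ℕ}

theorem isCompact_layer (B : Set (Fin n → ℝ)) (hB : IsCompact B) (a b : ℝ) (g : ℝ → ℝ)
    (hg : Continuous g) : IsCompact (layer B a b g) := by
  have himg : layer B a b g =
      (fun p : ℝ × (Fin n → ℝ) => (Fin.snoc (g p.1 • p.2) p.1 : Fin (n + 1) → ℝ)) ''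
        (Set.Icc a b ×ˢ B) := by
    ext x
    constructor
    · intro hx
      obtain ⟨hx1, hx2⟩ := hx
      obtain ⟨y, hy, hyx⟩ := Set.mem_smul_set.mp hx2
      refine ⟨(x (Fin.last n), y), ⟨hx1, hy⟩, ?_⟩
      show (Fin.snoc (g (x (Fin.last n)) • y) (x (Fin.last n)) : Fin (n + 1) → ℝ) = x
      rw [hyx]
      exact Fin.snoc_init_self x
    · rintro ⟨⟨s, y⟩, ⟨hs, hy⟩, rfl⟩
      refine ⟨?_, ?_⟩
      · show (Fin.snoc (g s • y) s : Fin (n + 1) → ℝ) (Fin.last n) ∈ Set.Icc a b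
        rw [Fin.snoc_last]
        exact hs
      · show Fin.init (Fin.snoc (g s • y) s : Fin (n + 1) → ℝ) ∈
          g ((Fin.snoc (g s • y) s : Fin (n + 1) → ℝ) (Fin.last n)) • B
        rw [Fin.snoc_last, Fin.init_snoc]
        exact Set.smul_mem_smul_set hy
  rw [himg]
  refine (isCompact_Icc.prod hB).image ?_
  exact Continuous.finSnoc ((hg.comp continuous_fst).smul continuous_snd) continuous_fst

end LayA

/-! ### LAYB : the volume of a layer set -/

section LayB

variable {n : ℕ}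

theorem taskLAYB_symm_apply (s : ℝ) (y : Fin n → ℝ) :
    (MeasurableEquiv.piFinSuccAbove (fun _ : Fin (n + 1) => ℝ) (Fin.last n)).symm (s, y)
      = Fin.snoc y s := by
  rw [MeasurableEquiv.piFinSuccAbove_symm_apply]
  simp [Fin.insertNthEquiv]

theorem taskLAYB_section (B : Set (Fin n → ℝ)) (a b : ℝ) (g : ℝ → ℝ) (s : ℝ) :
    Prod.mk s ⁻¹' ((MeasurableEquiv.piFinSuccAbove (fun _ : Fin (n + 1) => ℝ)
        (Fin.last n)).symm ⁻¹' layer B a b g)
      = if s ∈ Set.Icc a b then g s • B else ∅ := by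
  ext y
  rw [Set.mem_preimage, Set.mem_preimage, taskLAYB_symm_apply]
  by_cases hs : s ∈ Set.Icc a b
  · rw [if_pos hs]
    show (Fin.snoc y s : Fin (n + 1) → ℝ) (Fin.last n) ∈ Set.Icc a b ∧
      Fin.init (Fin.snoc y s : Fin (n + 1) → ℝ) ∈
        g ((Fin.snoc y s : Fin (n + 1) → ℝ) (Fin.last n)) • B
        ↔ y ∈ g s • B
    rw [Fin.snoc_last, Fin.init_snoc]
    exact ⟨fun h => h.2, fun h => ⟨hs, h⟩⟩
  · rw [if_neg hs]
    show (Fin.snoc y s : Fin (n + 1) → ℝ) (Fin.last n) ∈ Set.Icc a b ∧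
      Fin.init (Fin.snoc y s : Fin (n + 1) → ℝ) ∈
        g ((Fin.snoc y s : Fin (n + 1) → ℝ) (Fin.last n)) • B
        ↔ y ∈ (∅ : Set (Fin n → ℝ))
    rw [Fin.snoc_last]
    exact ⟨fun h => (hs h.1).elim, fun h => (Set.notMem_empty y h).elim⟩

theorem volume_layer (B : Set (Fin n → ℝ)) (hB : IsCompact B) (a b : ℝ) (g : ℝ → ℝ)
    (hg : Continuous g) (hg0 : ∀ s ∈ Set.Icc a b, 0 ≤ g s) :
    volume (layer B a b g) =
      (∫⁻ s in Set.Icc a b, ENNReal.ofReal (g s ^ n)) * volume B := by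
  have hL : MeasurableSet (layer B a b g) :=
    (isCompact_layer B hB a b g hg).isClosed.measurableSet
  have hmp : MeasurePreserving
      (MeasurableEquiv.piFinSuccAbove (fun _ : Fin (n + 1) => ℝ) (Fin.last n)).symm
      volume volume :=
    (volume_preserving_piFinSuccAbove (fun _ : Fin (n + 1) => ℝ) (Fin.last n)).symm _
  have hT : MeasurableSet
      ((MeasurableEquiv.piFinSuccAbove (fun _ : Fin (n + 1) => ℝ) (Fin.last n)).symm ⁻¹'
        layer B a b g) :=
    (MeasurableEquiv.piFinSuccAbove (fun _ : Fin (n + 1) => ℝ) (Fin.last n)).symm.measurable hL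
  have hterm : ∀ s : ℝ, volume (Prod.mk s ⁻¹' ((MeasurableEquiv.piFinSuccAbove
        (fun _ : Fin (n + 1) => ℝ) (Fin.last n)).symm ⁻¹' layer B a b g))
      = (Set.Icc a b).indicator (fun s => ENNReal.ofReal (g s ^ n) * volume B) s := by
    intro s
    rw [taskLAYB_section]
    by_cases hs : s ∈ Set.Icc a b
    · rw [if_pos hs, Set.indicator_of_mem hs, Measure.addHaar_smul, Module.finrank_fin_fun,
        abs_of_nonneg (pow_nonneg (hg0 s hs) n)]
    · rw [if_neg hs, Set.indicator_of_notMem hs, measure_empty]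
  rw [← hmp.measure_preimage hL.nullMeasurableSet, Measure.volume_eq_prod,
    Measure.prod_apply hT, lintegral_congr hterm, lintegral_indicator measurableSet_Icc,
    lintegral_mul_const' _ _ hB.measure_lt_top.ne]

end LayB

/-! ### INT : three one-dimensional integrals -/

section Int

theorem lintegral_affine_pow (n : ℕ) (a b α β : ℝ) (hab : a ≤ b) (hβ : β ≠ 0)
    (hg : ∀ s ∈ Set.Icc a b, 0 ≤ α + β * s) :
    ∫⁻ s in Set.Icc a b, ENNReal.ofReal ((α + β * s) ^ n) =
      ENNReal.ofReal (((α + β * b) ^ (n + 1) - (α + β * a) ^ (n + 1)) / (β * (n + 1))) := by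
  have hcont : Continuous (fun s : ℝ => (α + β * s) ^ n) := by fun_prop
  have hint : IntegrableOn (fun s : ℝ => (α + β * s) ^ n) (Set.Icc a b) :=
    hcont.integrableOn_Icc
  have hnn : 0 ≤ᵐ[volume.restrict (Set.Icc a b)] fun s : ℝ => (α + β * s) ^ n :=
    ae_restrict_of_forall_mem measurableSet_Icc (fun s hs => pow_nonneg (hg s hs) n)
  rw [← ofReal_integral_eq_lintegral_ofReal hint hnn]
  congr 1
  rw [integral_Icc_eq_integral_Ioc, ← intervalIntegral.integral_of_le hab]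
  have hn : ((n : ℝ) + 1) ≠ 0 := by positivity
  have hd : ∀ x ∈ Set.uIcc a b,
      HasDerivAt (fun s : ℝ => (α + β * s) ^ (n + 1) / (β * ((n : ℝ) + 1)))
        ((α + β * x) ^ n) x := by
    intro x _
    have h1 : HasDerivAt (fun s : ℝ => α + β * s) β x := by
      simpa using ((hasDerivAt_id x).const_mul β).const_add α
    have h2 := (h1.pow (n + 1)).div_const (β * ((n : ℝ) + 1))
    have h3 : HasDerivAt (fun s : ℝ => (α + β * s) ^ (n + 1) / (β * ((n : ℝ) + 1))) _ x := h2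
    refine h3.congr_deriv ?_
    rw [Nat.add_sub_cancel]
    push_cast
    field_simp
  rw [intervalIntegral.integral_eq_sub_of_hasDerivAt hd (hcont.intervalIntegrable a b)]
  ring

theorem lintegral_one_pow (n : ℕ) (a b : ℝ) (hab : a ≤ b) :
    ∫⁻ s in Set.Icc a b, ENNReal.ofReal ((1 + 0 * s) ^ n) = ENNReal.ofReal (b - a) := by
  simp only [zero_mul, add_zero, one_pow, ENNReal.ofReal_one]
  rw [setLIntegral_const, Real.volume_Icc, one_mul]

theorem taskINT_left (n : ℕ) :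
    ∫⁻ s in Set.Icc (-1 : ℝ) 0, ENNReal.ofReal ((1 - |s|) ^ n) =
      ENNReal.ofReal (1 / ((n : ℝ) + 1)) := by
  have h1 : ∫⁻ s in Set.Icc (-1 : ℝ) 0, ENNReal.ofReal ((1 - |s|) ^ n) =
      ∫⁻ s in Set.Icc (-1 : ℝ) 0, ENNReal.ofReal ((1 + 1 * s) ^ n) := by
    refine setLIntegral_congr_fun measurableSet_Icc (fun s hs => ?_)
    have hs0 : s ≤ 0 := hs.2
    show ENNReal.ofReal ((1 - |s|) ^ n) = ENNReal.ofReal ((1 + 1 * s) ^ n)
    rw [abs_of_nonpos hs0]
    congr 2
    ring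
  rw [h1, lintegral_affine_pow n (-1) 0 1 1 (by norm_num) one_ne_zero
    (fun s hs => by have := hs.1; linarith)]
  congr 1
  have e1 : (1 : ℝ) + 1 * 0 = 1 := by ring
  have e2 : (1 : ℝ) + 1 * (-1) = 0 := by ring
  rw [e1, e2, one_pow, zero_pow (Nat.succ_ne_zero n), sub_zero, one_mul]

theorem taskINT_right (n : ℕ) :
    ∫⁻ s in Set.Ioc (0 : ℝ) 1, ENNReal.ofReal ((1 - |s|) ^ n) =
      ENNReal.ofReal (1 / ((n : ℝ) + 1)) := by
  have h0 : ∫⁻ s in Set.Ioc (0 : ℝ) 1, ENNReal.ofReal ((1 - |s|) ^ n) =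
      ∫⁻ s in Set.Icc (0 : ℝ) 1, ENNReal.ofReal ((1 - |s|) ^ n) :=
    setLIntegral_congr Ioc_ae_eq_Icc
  have h1 : ∫⁻ s in Set.Icc (0 : ℝ) 1, ENNReal.ofReal ((1 - |s|) ^ n) =
      ∫⁻ s in Set.Icc (0 : ℝ) 1, ENNReal.ofReal ((1 + (-1) * s) ^ n) := by
    refine setLIntegral_congr_fun measurableSet_Icc (fun s hs => ?_)
    have hs0 : 0 ≤ s := hs.1
    show ENNReal.ofReal ((1 - |s|) ^ n) = ENNReal.ofReal ((1 + (-1) * s) ^ n)
    rw [abs_of_nonneg hs0]
    congr 2
    ring
  rw [h0, h1, lintegral_affine_pow n 0 1 1 (-1) zero_le_one (by norm_num)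
    (fun s hs => by have := hs.2; linarith)]
  congr 1
  have hn : ((n : ℝ) + 1) ≠ 0 := by positivity
  have e1 : (1 : ℝ) + (-1) * 1 = 0 := by ring
  have e2 : (1 : ℝ) + (-1) * 0 = 1 := by ring
  rw [e1, e2, one_pow, zero_pow (Nat.succ_ne_zero n)]
  field_simp
  ring

theorem lintegral_one_sub_abs_pow (n : ℕ) :
    ∫⁻ s in Set.Icc (-1 : ℝ) 1, ENNReal.ofReal ((1 - |s|) ^ n) =
      ENNReal.ofReal (2 / ((n : ℝ) + 1)) := by
  have hsplit : Set.Icc (-1 : ℝ) 1 = Set.Icc (-1 : ℝ) 0 ∪ Set.Ioc (0 : ℝ) 1 :=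
    (Set.Icc_union_Ioc_eq_Icc (by norm_num) zero_le_one).symm
  have hdisj : Disjoint (Set.Icc (-1 : ℝ) 0) (Set.Ioc (0 : ℝ) 1) := by
    refine Set.disjoint_left.mpr (fun s hs1 hs2 => ?_)
    exact absurd hs1.2 (not_le.mpr hs2.1)
  have hp : (0 : ℝ) ≤ 1 / ((n : ℝ) + 1) := by positivity
  rw [hsplit, lintegral_union measurableSet_Ioc hdisj, taskINT_left, taskINT_right,
    ← ENNReal.ofReal_add hp hp]
  congr 1
  ring

end Int

/-! ### POLA : basic facts on polar sets -/

section PolA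

variable {n : ℕ}

theorem zero_mem_polar (K : Set (Fin n → ℝ)) : (0 : Fin n → ℝ) ∈ polar K := by
  intro x _
  have h0 : ∑ i, (0 : Fin n → ℝ) i * x i = 0 :=
    Finset.sum_eq_zero (fun i _ => by rw [Pi.zero_apply, zero_mul])
  rw [h0]
  exact zero_le_one

theorem isClosed_polar (K : Set (Fin n → ℝ)) : IsClosed (polar K) := by
  have heq : polar K = ⋂ x ∈ K, {y : Fin n → ℝ | ∑ i, y i * x i ≤ 1} := by
    ext y
    constructor
    · intro hy
      exact Set.mem_iInter₂.mpr (fun x hx => hy x hx)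
    · intro hy x hx
      exact Set.mem_iInter₂.mp hy x hx
  rw [heq]
  refine isClosed_biInter (fun x _ => ?_)
  exact isClosed_le
    (continuous_finsetSum _ (fun i _ => (continuous_apply i).mul continuous_const))
    continuous_const

theorem sum_last (x y : Fin (n + 1) → ℝ) :
    ∑ i, x i * y i = ∑ i, Fin.init x i * Fin.init y i + x (Fin.last n) * y (Fin.last n) := by
  rw [Fin.sum_univ_castSucc]
  rfl

end PolA

/-! ### POLC : polar sets of sets with the origin in the interior -/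

section PolC

variable {n : ℕ}

theorem taskPOLC_sum_single (y : Fin n → ℝ) (j : Fin n) (v : ℝ) :
    ∑ i, y i * (Pi.single j v : Fin n → ℝ) i = y j * v := by
  simp [Pi.single_apply]

theorem taskPOLC_ball (K : Set (Fin n → ℝ)) (h0 : (0 : Fin n → ℝ) ∈ interior K) :
    ∃ r : ℝ, 0 < r ∧ ∀ (j : Fin n) (v : ℝ), |v| ≤ r → (Pi.single j v : Fin n → ℝ) ∈ K := by
  rw [mem_interior_iff_mem_nhds] at h0
  obtain ⟨r, hr, hball⟩ := Metric.nhds_basis_closedBall.mem_iff.mp h0
  refine ⟨r, hr, fun j v hv => hball ?_⟩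
  rw [Metric.mem_closedBall, dist_zero_right, pi_norm_le_iff_of_nonneg hr.le]
  intro i
  rw [Pi.single_apply]
  split_ifs
  · rw [Real.norm_eq_abs]; exact hv
  · rw [norm_zero]; exact hr.le

theorem isCompact_polar (K : Set (Fin n → ℝ)) (h0 : (0 : Fin n → ℝ) ∈ interior K) :
    IsCompact (polar K) := by
  obtain ⟨r, hr, hK⟩ := taskPOLC_ball K h0
  refine Metric.isCompact_of_isClosed_isBounded (isClosed_polar K)
    (Metric.isBounded_closedBall.subset (?_ : polar K ⊆ Metric.closedBall 0 (1 / r)))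
  intro y hy
  rw [Metric.mem_closedBall, dist_zero_right, pi_norm_le_iff_of_nonneg (by positivity)]
  intro j
  have h1 := hy _ (hK j r (by rw [abs_of_pos hr]))
  have h2 := hy _ (hK j (-r) (by rw [abs_neg, abs_of_pos hr]))
  rw [taskPOLC_sum_single] at h1 h2
  have h3 : |y j| * r ≤ 1 := by
    have h4 : |y j| * r = |y j * r| := by rw [abs_mul, abs_of_pos hr]
    rw [h4, abs_le]
    constructor <;> linarith
  rw [Real.norm_eq_abs, le_div_iff₀ hr]
  exact h3

/-- If `⟨y, k⟩ ≤ c` for all `k ∈ K`, where `c ≥ 0` and `0` is an interior point of `K`, then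
`y ∈ c • K°`. -/
theorem mem_smul_polar (K : Set (Fin n → ℝ)) (h0 : (0 : Fin n → ℝ) ∈ interior K)
    (y : Fin n → ℝ) (c : ℝ) (hc : 0 ≤ c) (h : ∀ k ∈ K, ∑ i, y i * k i ≤ c) :
    y ∈ c • polar K := by
  rw [Set.mem_smul_set]
  rcases hc.eq_or_lt with hc0 | hcpos
  · obtain ⟨r, hr, hK⟩ := taskPOLC_ball K h0
    have hy : y = 0 := by
      funext j
      have h1 := h _ (hK j r (by rw [abs_of_pos hr]))
      have h2 := h _ (hK j (-r) (by rw [abs_neg, abs_of_pos hr]))
      rw [taskPOLC_sum_single] at h1 h2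
      rw [← hc0] at h1 h2
      have h3 : y j * r = 0 := by linarith
      rcases mul_eq_zero.mp h3 with h4 | h4
      · rw [h4]; rfl
      · exact absurd h4 hr.ne'
    refine ⟨0, zero_mem_polar K, ?_⟩
    rw [hy, smul_zero]
  · refine ⟨c⁻¹ • y, ?_, ?_⟩
    · intro k hk
      have h1 := h k hk
      have h2 : ∑ i, (c⁻¹ • y) i * k i = c⁻¹ * ∑ i, y i * k i := by
        rw [Finset.mul_sum]
        refine Finset.sum_congr rfl fun i _ => ?_
        simp only [Pi.smul_apply, smul_eq_mul]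
        ring
      rw [h2]
      have h5 : 0 ≤ c⁻¹ := inv_nonneg.mpr hc
      calc c⁻¹ * ∑ i, y i * k i ≤ c⁻¹ * c := mul_le_mul_of_nonneg_left h1 h5
        _ = 1 := inv_mul_cancel₀ hcpos.ne'
    · rw [smul_smul, mul_inv_cancel₀ hcpos.ne', one_smul]

end PolC

/-! ### BODA : symmetric bodies; convexity of layer sets -/

section BodA

variable {n : ℕ}

theorem zero_mem_interior_of_symm (K : Set (Fin n → ℝ)) (hK : IsConvexBody K)
    (hs : ∀ x ∈ K, -x ∈ K) : (0 : Fin n → ℝ) ∈ interior K := by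
  obtain ⟨x, hx⟩ := hK.2.2
  have himg : (Homeomorph.neg (Fin n → ℝ)) '' K = K := by
    ext y
    constructor
    · rintro ⟨k, hk, rfl⟩
      exact hs k hk
    · intro hy
      exact ⟨-y, hs y hy, neg_neg y⟩
  have hneg : -x ∈ interior K := by
    have h1 : (Homeomorph.neg (Fin n → ℝ)) x ∈ (Homeomorph.neg (Fin n → ℝ)) '' (interior K) :=
      Set.mem_image_of_mem _ hx
    rw [(Homeomorph.neg (Fin n → ℝ)).image_interior, himg] at h1
    exact h1
  have h := hK.2.1.interior hx hneg (by norm_num : (0:ℝ) ≤ 1 / 2) (by norm_num : (0:ℝ) ≤ 1 / 2)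
    (by norm_num : (1 / 2 : ℝ) + 1 / 2 = 1)
  have e : (1 / 2 : ℝ) • x + (1 / 2 : ℝ) • (-x) = 0 := by
    rw [smul_neg, add_neg_cancel]
  rw [e] at h
  exact h

theorem convex_layer (K : Set (Fin n → ℝ)) (hK : Convex ℝ K) (a b α β : ℝ)
    (hg : ∀ s ∈ Set.Icc a b, 0 ≤ α + β * s) :
    Convex ℝ (layer K a b (fun s => α + β * s)) := by
  intro x hx x' hx' t t' ht ht' htt
  obtain ⟨hs, hk⟩ := hx
  obtain ⟨hs', hk'⟩ := hx'
  obtain ⟨k, hkK, hkeq⟩ := Set.mem_smul_set.1 hk
  obtain ⟨k', hkK', hkeq'⟩ := Set.mem_smul_set.1 hk'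
  have hkeq2 : (α + β * x (Fin.last n)) • k = Fin.init x := hkeq
  have hkeq2' : (α + β * x' (Fin.last n)) • k' = Fin.init x' := hkeq'
  have hlast : (t • x + t' • x') (Fin.last n) = t * x (Fin.last n) + t' * x' (Fin.last n) := by
    simp
  have hmem : t * x (Fin.last n) + t' * x' (Fin.last n) ∈ Set.Icc a b := by
    have h := convex_Icc a b hs hs' ht ht' htt
    simpa using h
  obtain ⟨c, hcd⟩ : ∃ c : ℝ, c = t * (α + β * x (Fin.last n)) := ⟨_, rfl⟩
  obtain ⟨c', hcd'⟩ : ∃ c' : ℝ, c' = t' * (α + β * x' (Fin.last n)) := ⟨_, rfl⟩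
  have hc : 0 ≤ c := by
    rw [hcd]
    exact mul_nonneg ht (hg _ hs)
  have hc' : 0 ≤ c' := by
    rw [hcd']
    exact mul_nonneg ht' (hg _ hs')
  have hsum : α + β * (t * x (Fin.last n) + t' * x' (Fin.last n)) = c + c' := by
    rw [hcd, hcd']
    linear_combination (-α) * htt
  have hinit : Fin.init (t • x + t' • x') = c • k + c' • k' := by
    have e : Fin.init (t • x + t' • x') = t • Fin.init x + t' • Fin.init x' := by
      funext i
      rfl
    rw [e, ← hkeq2, ← hkeq2', smul_smul, smul_smul, hcd, hcd']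
  refine ⟨by rw [hlast]; exact hmem, ?_⟩
  show Fin.init (t • x + t' • x') ∈ (α + β * (t • x + t' • x') (Fin.last n)) • K
  rw [hlast, hsum, hinit]
  rcases eq_or_lt_of_le (add_nonneg hc hc') with h0 | hpos
  · have hc0 : c = 0 := by linarith
    have hc0' : c' = 0 := by linarith
    rw [hc0, hc0']
    refine Set.mem_smul_set.2 ⟨k, hkK, ?_⟩
    simp
  · refine Set.mem_smul_set.2 ⟨(c / (c + c')) • k + (c' / (c + c')) • k', ?_, ?_⟩
    · apply hK hkK hkK' (div_nonneg hc hpos.le) (div_nonneg hc' hpos.le)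
      rw [← add_div, div_self hpos.ne']
    · rw [smul_add, smul_smul, smul_smul, mul_div_cancel₀ _ hpos.ne',
        mul_div_cancel₀ _ hpos.ne']

end BodA

/-! ### BODB : layer sets over convex bodies are convex bodies -/

section BodB

variable {n : ℕ}

theorem zero_mem_interior_layer (K : Set (Fin n → ℝ)) (h0 : (0 : Fin n → ℝ) ∈ interior K)
    (a b α β : ℝ) (ha : a < 0) (hb : 0 < b) (hα : 0 < α) :
    (0 : Fin (n + 1) → ℝ) ∈ interior (layer K a b (fun s => α + β * s)) := by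
  obtain ⟨r, hr, hrK⟩ := Metric.mem_nhds_iff.mp (mem_interior_iff_mem_nhds.mp h0)
  have hβ1 : 0 < 2 * |β| + 1 := by positivity
  obtain ⟨ε, hε⟩ : ∃ ε : ℝ, ε = min (min (-a) b) (min (α / (2 * |β| + 1)) (r * α / 2)) :=
    ⟨_, rfl⟩
  have hε0 : 0 < ε := by
    rw [hε]
    exact lt_min (lt_min (by linarith) hb) (lt_min (div_pos hα hβ1) (by positivity))
  have hε1 : ε ≤ -a := by
    rw [hε]
    exact (min_le_left _ _).trans (min_le_left _ _)
  have hε2 : ε ≤ b := by
    rw [hε]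
    exact (min_le_left _ _).trans (min_le_right _ _)
  have hε3 : ε ≤ α / (2 * |β| + 1) := by
    rw [hε]
    exact (min_le_right _ _).trans (min_le_left _ _)
  have hε4 : ε ≤ r * α / 2 := by
    rw [hε]
    exact (min_le_right _ _).trans (min_le_right _ _)
  rw [mem_interior_iff_mem_nhds, Metric.mem_nhds_iff]
  refine ⟨ε, hε0, fun x hx => ?_⟩
  have hxn : ‖x‖ < ε := by
    rwa [mem_ball_zero_iff] at hx
  have hlast : |x (Fin.last n)| < ε := lt_of_le_of_lt (norm_le_pi_norm x (Fin.last n)) hxn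
  have hl := abs_lt.mp hlast
  have hinit : ‖Fin.init x‖ ≤ ‖x‖ := by
    rw [pi_norm_le_iff_of_nonneg (norm_nonneg x)]
    intro i
    exact norm_le_pi_norm x i.castSucc
  have hβs : |β * x (Fin.last n)| ≤ α / 2 := by
    rw [abs_mul]
    have h3 : ε * (2 * |β| + 1) ≤ α := by
      rwa [le_div_iff₀ hβ1] at hε3
    have hb0 : 0 ≤ |β| := abs_nonneg β
    have hx0 : 0 ≤ |x (Fin.last n)| := abs_nonneg _
    nlinarith
  have hgs : α / 2 ≤ α + β * x (Fin.last n) := by
    have h4 := (abs_le.mp hβs).1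
    linarith
  have hgpos : 0 < α + β * x (Fin.last n) := by linarith
  refine ⟨⟨by linarith [hl.1], by linarith [hl.2]⟩, ?_⟩
  show Fin.init x ∈ (α + β * x (Fin.last n)) • K
  rw [Set.mem_smul_set]
  refine ⟨(α + β * x (Fin.last n))⁻¹ • Fin.init x, hrK ?_, smul_inv_smul₀ hgpos.ne' _⟩
  rw [mem_ball_zero_iff, norm_smul, norm_inv, Real.norm_of_nonneg hgpos.le,
    inv_mul_lt_iff₀ hgpos]
  calc ‖Fin.init x‖ ≤ ‖x‖ := hinit
    _ < ε := hxn
    _ ≤ r * α / 2 := hε4
    _ = (α / 2) * r := by ring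
    _ ≤ (α + β * x (Fin.last n)) * r := mul_le_mul_of_nonneg_right hgs hr.le

theorem isConvexBody_layer (K : Set (Fin n → ℝ)) (hK : IsConvexBody K)
    (h0 : (0 : Fin n → ℝ) ∈ interior K) (a b α β : ℝ) (ha : a < 0) (hb : 0 < b) (hα : 0 < α)
    (hg : ∀ s ∈ Set.Icc a b, 0 ≤ α + β * s) :
    IsConvexBody (layer K a b (fun s => α + β * s)) :=
  ⟨isCompact_layer K hK.1 a b _ (by fun_prop), convex_layer K hK.2.1 a b α β hg,
    ⟨0, zero_mem_interior_layer K h0 a b α β ha hb hα⟩⟩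

end BodB

/-! ### PSYM : the polar of the prism K × [-1, 1] -/

section PSym

variable {n : ℕ}

theorem layer_symm (K : Set (Fin n → ℝ)) (hs : ∀ x ∈ K, -x ∈ K) :
    ∀ x ∈ layer K (-1) 1 (fun s => 1 + 0 * s), -x ∈ layer K (-1) 1 (fun s => 1 + 0 * s) := by
  rintro x ⟨h1, h2⟩
  have h2' : Fin.init x ∈ (1 + 0 * x (Fin.last n) : ℝ) • K := h2
  have e : (1 + 0 * x (Fin.last n) : ℝ) = 1 := by ring
  rw [e, one_smul] at h2'
  refine ⟨?_, ?_⟩
  · show -x (Fin.last n) ∈ Set.Icc (-1 : ℝ) 1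
    exact ⟨by linarith [h1.2], by linarith [h1.1]⟩
  · show Fin.init (-x) ∈ (1 + 0 * (-x) (Fin.last n) : ℝ) • K
    have e' : (1 + 0 * (-x) (Fin.last n) : ℝ) = 1 := by ring
    rw [e', one_smul]
    have hinit : Fin.init (-x) = -Fin.init x := rfl
    rw [hinit]
    exact hs _ h2'

theorem polar_prism_subset (K : Set (Fin n → ℝ)) (h0 : (0 : Fin n → ℝ) ∈ interior K) :
    polar (layer K (-1) 1 (fun s => 1 + 0 * s)) ⊆ layer (polar K) (-1) 1 (fun s => 1 - |s|) := by
  intro y hy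
  have h0K : (0 : Fin n → ℝ) ∈ K := interior_subset h0
  have key : ∀ k ∈ K, ∀ s : ℝ, s ∈ Set.Icc (-1 : ℝ) 1 →
      ∑ i, Fin.init y i * k i + y (Fin.last n) * s ≤ 1 := by
    intro k hk s hs
    have hmem : (Fin.snoc k s : Fin (n + 1) → ℝ) ∈ layer K (-1) 1 (fun s => 1 + 0 * s) := by
      refine ⟨?_, ?_⟩
      · show (Fin.snoc k s : Fin (n + 1) → ℝ) (Fin.last n) ∈ Set.Icc (-1 : ℝ) 1
        rw [Fin.snoc_last]
        exact hs
      · show Fin.init (Fin.snoc k s : Fin (n + 1) → ℝ) ∈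
          (1 + 0 * (Fin.snoc k s : Fin (n + 1) → ℝ) (Fin.last n) : ℝ) • K
        have e : (1 + 0 * (Fin.snoc k s : Fin (n + 1) → ℝ) (Fin.last n) : ℝ) = 1 := by ring
        rw [e, one_smul, Fin.init_snoc]
        exact hk
    have h := hy _ hmem
    rw [sum_last, Fin.init_snoc, Fin.snoc_last] at h
    exact h
  have ht1 : y (Fin.last n) ≤ 1 := by
    have h := key 0 h0K 1 ⟨by norm_num, le_refl 1⟩
    simpa using h
  have ht2 : -y (Fin.last n) ≤ 1 := by
    have h := key 0 h0K (-1) ⟨le_refl _, by norm_num⟩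
    simpa using h
  refine ⟨⟨by linarith, ht1⟩, ?_⟩
  show Fin.init y ∈ (1 - |y (Fin.last n)|) • polar K
  apply mem_smul_polar K h0 (Fin.init y) (1 - |y (Fin.last n)|)
  · have habs : |y (Fin.last n)| ≤ 1 := abs_le.mpr ⟨by linarith, ht1⟩
    linarith
  · intro k hk
    rcases le_total 0 (y (Fin.last n)) with ht | ht
    · have h := key k hk 1 ⟨by norm_num, le_refl 1⟩
      rw [abs_of_nonneg ht]
      linarith
    · have h := key k hk (-1) ⟨le_refl _, by norm_num⟩
      rw [abs_of_nonpos ht]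
      linarith

end PSym

/-! ### PCONE : the polar of the pyramid over K -/

section PCone

variable {n : ℕ}

theorem polar_pyramid_subset (K : Set (Fin n → ℝ)) (h0 : (0 : Fin n → ℝ) ∈ interior K)
    (h : ℝ) (h1 : 0 < h) (h2 : h < 1) :
    polar (layer K (-h) (1 - h) (fun s => (1 - h) + (-1) * s)) ⊆
      layer (polar K) (-(1 / h)) (1 / (1 - h)) (fun s => 1 + h * s) := by
  intro y hy
  have hy' : ∀ x ∈ layer K (-h) (1 - h) (fun s => (1 - h) + (-1) * s),
      ∑ i, y i * x i ≤ 1 := hy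
  have hK0 : (0 : Fin n → ℝ) ∈ K := interior_subset h0
  have h3 : 0 < 1 - h := by linarith
  have hbase : ∀ k ∈ K, ∑ i, Fin.init y i * k i ≤ 1 + h * y (Fin.last n) := by
    intro k hk
    have hmem : (Fin.snoc k (-h) : Fin (n + 1) → ℝ) ∈
        layer K (-h) (1 - h) (fun s => (1 - h) + (-1) * s) := by
      refine ⟨?_, ?_⟩
      · rw [Fin.snoc_last]
        exact ⟨le_refl _, by linarith⟩
      · rw [Fin.snoc_last, Fin.init_snoc]
        refine Set.mem_smul_set.mpr ⟨k, hk, ?_⟩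
        have hone : (1 - h) + (-1) * (-h) = (1 : ℝ) := by ring
        show ((1 - h) + (-1) * (-h)) • k = k
        rw [hone, one_smul]
    have hle := hy' _ hmem
    rw [sum_last, Fin.snoc_last, Fin.init_snoc] at hle
    have hmul : y (Fin.last n) * (-h) = -(h * y (Fin.last n)) := by ring
    rw [hmul] at hle
    linarith
  have hapex : y (Fin.last n) * (1 - h) ≤ 1 := by
    have hmem : (Fin.snoc (0 : Fin n → ℝ) (1 - h) : Fin (n + 1) → ℝ) ∈
        layer K (-h) (1 - h) (fun s => (1 - h) + (-1) * s) := by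
      refine ⟨?_, ?_⟩
      · rw [Fin.snoc_last]
        exact ⟨by linarith, le_refl _⟩
      · rw [Fin.snoc_last, Fin.init_snoc]
        exact Set.mem_smul_set.mpr ⟨0, hK0, smul_zero _⟩
    have hle := hy' _ hmem
    rw [sum_last, Fin.snoc_last, Fin.init_snoc] at hle
    simpa using hle
  have hnn : 0 ≤ 1 + h * y (Fin.last n) := by
    have h00 := hbase 0 hK0
    simpa using h00
  refine ⟨⟨?_, ?_⟩, ?_⟩
  · rw [neg_le, le_div_iff₀ h1]
    have hmul : -y (Fin.last n) * h = -(h * y (Fin.last n)) := by ring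
    rw [hmul]
    linarith
  · rw [le_div_iff₀ h3]
    exact hapex
  · exact mem_smul_polar K h0 (Fin.init y) (1 + h * y (Fin.last n)) hnn hbase

end PCone

/-! ### VSYM : the volume product of the prism -/

section VSym

variable {n : ℕ}

theorem volume_prism_mul_polar_le (K : Set (Fin n → ℝ)) (hK : IsConvexBody K)
    (h0 : (0 : Fin n → ℝ) ∈ interior K) :
    volume (layer K (-1) 1 (fun s => 1 + 0 * s)) *
        volume (polar (layer K (-1) 1 (fun s => 1 + 0 * s))) ≤
      ENNReal.ofReal (4 / ((n : ℝ) + 1)) * (volume K * volume (polar K)) := by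
  have h1 : volume (layer K (-1) 1 (fun s => 1 + 0 * s)) = ENNReal.ofReal 2 * volume K := by
    have hg0 : ∀ s ∈ Set.Icc (-1 : ℝ) 1, 0 ≤ (fun s : ℝ => 1 + 0 * s) s := by
      intro s _
      show (0 : ℝ) ≤ 1 + 0 * s
      norm_num
    rw [volume_layer K hK.1 (-1) 1 (fun s => 1 + 0 * s) (by fun_prop) hg0,
      lintegral_one_pow n (-1) 1 (by norm_num)]
    norm_num
  have h2 : volume (polar (layer K (-1) 1 (fun s => 1 + 0 * s))) ≤
      ENNReal.ofReal (2 / ((n : ℝ) + 1)) * volume (polar K) := by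
    have hg1 : ∀ s ∈ Set.Icc (-1 : ℝ) 1, 0 ≤ (fun s : ℝ => 1 - |s|) s := by
      intro s hs
      show (0 : ℝ) ≤ 1 - |s|
      have h3 : |s| ≤ 1 := abs_le.2 hs
      linarith
    calc volume (polar (layer K (-1) 1 (fun s => 1 + 0 * s)))
        ≤ volume (layer (polar K) (-1) 1 (fun s => 1 - |s|)) :=
          measure_mono (polar_prism_subset K h0)
      _ = ENNReal.ofReal (2 / ((n : ℝ) + 1)) * volume (polar K) := by
          rw [volume_layer (polar K) (isCompact_polar K h0) (-1) 1 (fun s => 1 - |s|)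
            (continuous_const.sub continuous_abs) hg1, lintegral_one_sub_abs_pow n]
  calc volume (layer K (-1) 1 (fun s => 1 + 0 * s)) *
        volume (polar (layer K (-1) 1 (fun s => 1 + 0 * s)))
      ≤ (ENNReal.ofReal 2 * volume K) *
        (ENNReal.ofReal (2 / ((n : ℝ) + 1)) * volume (polar K)) := by
        rw [h1]
        exact mul_le_mul' le_rfl h2
    _ = ENNReal.ofReal (4 / ((n : ℝ) + 1)) * (volume K * volume (polar K)) := by
        rw [mul_mul_mul_comm, ← ENNReal.ofReal_mul (by norm_num)]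
        congr 2
        ring

end VSym

/-! ### VCONE : the volume product of the pyramid -/

section VCone

variable {n : ℕ}

theorem volume_pyramid_mul_polar_le (K : Set (Fin n → ℝ)) (hK : IsConvexBody K)
    (h0 : (0 : Fin n → ℝ) ∈ interior K) (h : ℝ) (h1 : 0 < h) (h2 : h < 1) :
    volume (layer K (-h) (1 - h) (fun s => (1 - h) + (-1) * s)) *
        volume (polar (layer K (-h) (1 - h) (fun s => (1 - h) + (-1) * s))) ≤
      ENNReal.ofReal (1 / (((n : ℝ) + 1) ^ 2 * h * (1 - h) ^ (n + 1))) *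
        (volume K * volume (polar K)) := by
  have hpos : 0 < 1 - h := by linarith
  have hn : (0 : ℝ) < (n : ℝ) + 1 := by positivity
  -- the volume of the pyramid
  have hV1 : volume (layer K (-h) (1 - h) (fun s => (1 - h) + (-1) * s))
      = ENNReal.ofReal (1 / ((n : ℝ) + 1)) * volume K := by
    rw [volume_layer K hK.1 (-h) (1 - h) (fun s => (1 - h) + (-1) * s) (by fun_prop)
      (fun s hs => by linarith [hs.2])]
    rw [lintegral_affine_pow n (-h) (1 - h) (1 - h) (-1) (by linarith) (by norm_num)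
      (fun s hs => by linarith [hs.2])]
    have e1 : (1 - h) + (-1) * (1 - h) = 0 := by ring
    have e2 : (1 - h) + (-1) * (-h) = 1 := by ring
    rw [e1, e2, zero_pow (Nat.succ_ne_zero n), one_pow]
    have e3 : ((0 : ℝ) - 1) / (-1 * ((n : ℝ) + 1)) = 1 / ((n : ℝ) + 1) := by
      field_simp
      norm_num
    rw [e3]
  -- the volume of the polar of the pyramid
  have hnn : ∀ s ∈ Set.Icc (-(1 / h)) (1 / (1 - h)), 0 ≤ 1 + h * s := by
    intro s hs
    have e : h * (-(1 / h)) = -1 := by field_simp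
    have := mul_le_mul_of_nonneg_left hs.1 h1.le
    linarith
  have hab : -(1 / h) ≤ 1 / (1 - h) := by
    have a1 : 0 < 1 / h := one_div_pos.mpr h1
    have a2 : 0 < 1 / (1 - h) := one_div_pos.mpr hpos
    linarith
  have hV2 : volume (polar (layer K (-h) (1 - h) (fun s => (1 - h) + (-1) * s)))
      ≤ ENNReal.ofReal (1 / (((n : ℝ) + 1) * h * (1 - h) ^ (n + 1))) * volume (polar K) := by
    refine le_trans (measure_mono (polar_pyramid_subset K h0 h h1 h2)) (le_of_eq ?_)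
    rw [volume_layer (polar K) (isCompact_polar K h0) (-(1 / h)) (1 / (1 - h))
      (fun s => 1 + h * s) (by fun_prop) hnn]
    rw [lintegral_affine_pow n (-(1 / h)) (1 / (1 - h)) 1 h hab h1.ne' hnn]
    have e3 : 1 + h * (1 / (1 - h)) = 1 / (1 - h) := by
      field_simp
      ring
    have e4 : 1 + h * (-(1 / h)) = 0 := by
      field_simp
      ring
    rw [e3, e4, zero_pow (Nat.succ_ne_zero n), sub_zero]
    have e5 : (1 / (1 - h)) ^ (n + 1) / (h * ((n : ℝ) + 1))
        = 1 / (((n : ℝ) + 1) * h * (1 - h) ^ (n + 1)) := by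
      rw [one_div, inv_pow]
      field_simp
    rw [e5]
  rw [hV1]
  refine le_trans (mul_le_mul_right hV2 _) (le_of_eq ?_)
  rw [mul_mul_mul_comm, ← ENNReal.ofReal_mul (by positivity)]
  congr 2
  field_simp

end VCone

/-! ### TRANS : translating a convex body -/

section Trans

variable {n : ℕ}

theorem isConvexBody_translate (K : Set (Fin n → ℝ)) (hK : IsConvexBody K) (z : Fin n → ℝ)
    (hz : z ∈ interior K) :
    IsConvexBody ((fun x => x - z) '' K) ∧ (0 : Fin n → ℝ) ∈ interior ((fun x => x - z) '' K) ∧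
      volume ((fun x => x - z) '' K) = volume K := by
  have himg : (fun x : Fin n → ℝ => x - z) '' K = (Homeomorph.subRight z) '' K := rfl
  have hint : (0 : Fin n → ℝ) ∈ interior ((fun x => x - z) '' K) := by
    rw [himg, ← Homeomorph.image_interior]
    exact ⟨z, hz, by simp⟩
  have hpre : (fun x : Fin n → ℝ => x - z) '' K = (fun x => x + z) ⁻¹' K := by
    ext y
    constructor
    · rintro ⟨x, hx, rfl⟩
      simpa using hx
    · intro hy
      exact ⟨y + z, hy, by simp⟩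
  refine ⟨⟨?_, ?_, ⟨0, hint⟩⟩, hint, ?_⟩
  · exact hK.1.image (continuous_id.sub continuous_const)
  · intro a ha b hb s t hs ht hst
    obtain ⟨x, hx, rfl⟩ := ha
    obtain ⟨y, hy, rfl⟩ := hb
    refine ⟨s • x + t • y, hK.2.1 hx hy hs ht hst, ?_⟩
    have hs' : s = 1 - t := by linarith
    subst hs'
    simp only [smul_sub, sub_smul, one_smul]
    abel
  · rw [hpre]
    exact measure_preimage_add_right volume z K

theorem image_sub_zero (K : Set (Fin n → ℝ)) : (fun x => x - (0 : Fin n → ℝ)) '' K = K := by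
  simp

end Trans

/-! ### FSYM : the symmetric inequality in dimension n+1 implies it in dimension n -/

section FSym

theorem mahlerSym_of_succ (n : ℕ) (h : MahlerSym (n + 1)) : MahlerSym n := by
  intro K hK hs
  have h0 := zero_mem_interior_of_symm K hK hs
  have hQ := isConvexBody_layer K hK h0 (-1) 1 1 0 (by norm_num) (by norm_num) (by norm_num)
    (fun s _ => by norm_num)
  have h1 := h (layer K (-1) 1 (fun s => 1 + 0 * s)) hQ (layer_symm K hs)
  have h2 := volume_prism_mul_polar_le K hK h0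
  have h3 := h1.trans h2
  have e : (4 : ℝ) ^ (n + 1) / ((n + 1).factorial : ℝ)
      = 4 / ((n : ℝ) + 1) * (4 ^ n / (n.factorial : ℝ)) := by
    rw [Nat.factorial_succ]
    push_cast
    have hf : (n.factorial : ℝ) ≠ 0 := by positivity
    have hn : (n : ℝ) + 1 ≠ 0 := by positivity
    field_simp
    ring
  rw [e, ENNReal.ofReal_mul (by positivity)] at h3
  have hc0 : ENNReal.ofReal (4 / ((n : ℝ) + 1)) ≠ 0 := by
    rw [Ne, ENNReal.ofReal_eq_zero, not_le]
    positivity
  exact (ENNReal.mul_le_mul_iff_right hc0 ENNReal.ofReal_ne_top).mp h3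

end FSym

/-! ### FGEN : the general inequality in dimension n+1 implies it in dimension n -/

section FGen

theorem taskFGEN_arith (n : ℕ) :
    (((n + 1 : ℕ) : ℝ) + 1) ^ (n + 1 + 1) / (((n + 1).factorial : ℝ)) ^ 2 =
      (1 / (((n : ℝ) + 1) ^ 2 * (1 / ((n : ℝ) + 2)) * (1 - 1 / ((n : ℝ) + 2)) ^ (n + 1))) *
        (((n : ℝ) + 1) ^ (n + 1) / ((n.factorial : ℝ)) ^ 2) := by
  have hf : ((n.factorial : ℕ) : ℝ) ≠ 0 := Nat.cast_ne_zero.mpr (Nat.factorial_ne_zero n)
  have h1 : ((n : ℝ) + 1) ≠ 0 := by positivity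
  have h2 : ((n : ℝ) + 2) ≠ 0 := by positivity
  have e : (1 : ℝ) - 1 / ((n : ℝ) + 2) = ((n : ℝ) + 1) / ((n : ℝ) + 2) := by
    field_simp
    ring
  rw [e, Nat.factorial_succ, div_pow]
  push_cast
  field_simp
  ring

theorem taskFGEN_pos (n : ℕ) :
    (0 : ℝ) < 1 / (((n : ℝ) + 1) ^ 2 * (1 / ((n : ℝ) + 2)) * (1 - 1 / ((n : ℝ) + 2)) ^ (n + 1)) := by
  have h2 : (0 : ℝ) < (n : ℝ) + 2 := by positivity
  have e : (1 : ℝ) - 1 / ((n : ℝ) + 2) = ((n : ℝ) + 1) / ((n : ℝ) + 2) := by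
    field_simp
    ring
  rw [e]
  positivity

theorem mahlerGen_of_succ (n : ℕ) (h : MahlerGen (n + 1)) : MahlerGen n := by
  intro K hK z hz
  obtain ⟨hK', h0, hvol⟩ := isConvexBody_translate K hK z hz
  have hn2 : (0 : ℝ) < (n : ℝ) + 2 := by positivity
  have hh0 : (0 : ℝ) < 1 / ((n : ℝ) + 2) := by positivity
  have hh1 : (1 : ℝ) / ((n : ℝ) + 2) < 1 := by
    rw [div_lt_one hn2]
    linarith [(Nat.cast_nonneg n : (0 : ℝ) ≤ n)]
  have hP := isConvexBody_layer ((fun x => x - z) '' K) hK' h0 (-(1 / ((n : ℝ) + 2)))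
    (1 - 1 / ((n : ℝ) + 2)) (1 - 1 / ((n : ℝ) + 2)) (-1) (by linarith) (by linarith)
    (by linarith) (fun s hs => by linarith [hs.2])
  have h0P := zero_mem_interior_layer ((fun x => x - z) '' K) h0 (-(1 / ((n : ℝ) + 2)))
    (1 - 1 / ((n : ℝ) + 2)) (1 - 1 / ((n : ℝ) + 2)) (-1) (by linarith) (by linarith)
    (by linarith)
  have h1 := h _ hP 0 h0P
  rw [image_sub_zero] at h1
  have h2 := volume_pyramid_mul_polar_le ((fun x => x - z) '' K) hK' h0 (1 / ((n : ℝ) + 2))
    hh0 hh1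
  have h3 := le_trans h1 h2
  rw [taskFGEN_arith n, ENNReal.ofReal_mul (taskFGEN_pos n).le] at h3
  have h4 := (ENNReal.mul_le_mul_iff_right (ENNReal.ofReal_pos.2 (taskFGEN_pos n)).ne'
    ENNReal.ofReal_ne_top).1 h3
  rw [hvol] at h4
  exact h4

end FGen

end Vale.Agent.Lib.P248.Dim
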