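import Vale.Agent.Lib.P248.Dim.Mono

/-!
# P248: the unconditional one-step estimates (prism and pyramid)
-/

namespace Vale.Agent.Lib.P248.Dim

open MeasureTheory
open scoped ENNReal Pointwise

/-- For an origin-symmetric convex body `K ⊆ ℝⁿ`, the prism `Q = K × [-1, 1]` is an
origin-symmetric convex body of `ℝⁿ⁺¹` with `|Q| |Q°| ≤ (4/(n+1)) |K| |K°|`. -/
theorem prism_step (n : ℕ) (K : Set (Fin n → ℝ)) (hK : IsConvexBody K)
    (hs : ∀ x ∈ K, -x ∈ K) :
    ∃ Q : Set (Fin (n + 1) → ℝ), IsConvexBody Q ∧ (∀ x ∈ Q, -x ∈ Q) ∧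
      volume Q * volume (polar Q) ≤
        ENNReal.ofReal (4 / ((n : ℝ) + 1)) * (volume K * volume (polar K)) := by
  have h0 := zero_mem_interior_of_symm K hK hs
  refine ⟨layer K (-1) 1 (fun s => 1 + 0 * s), ?_, layer_symm K hs,
    volume_prism_mul_polar_le K hK h0⟩
  exact isConvexBody_layer K hK h0 (-1) 1 1 0 (by norm_num) (by norm_num) (by norm_num)
    (by intro s _; norm_num)

/-- For a convex body `K ⊆ ℝⁿ` and an interior point `z`, a pyramid `P ⊆ ℝⁿ⁺¹` over `K - z`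
and an interior point `w` of `P` satisfy
`|P| |(P - w)°| ≤ ((n+2)ⁿ⁺² / (n+1)ⁿ⁺³) |K| |(K - z)°|`. -/
theorem pyramid_step (n : ℕ) (K : Set (Fin n → ℝ)) (hK : IsConvexBody K)
    (z : Fin n → ℝ) (hz : z ∈ interior K) :
    ∃ (P : Set (Fin (n + 1) → ℝ)) (w : Fin (n + 1) → ℝ), IsConvexBody P ∧ w ∈ interior P ∧
      volume P * volume (polar ((fun x => x - w) '' P)) ≤
        ENNReal.ofReal (((n : ℝ) + 2) ^ (n + 2) / ((n : ℝ) + 1) ^ (n + 3)) *
          (volume K * volume (polar ((fun x => x - z) '' K))) := by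
  obtain ⟨hK', h0', hvol⟩ := isConvexBody_translate K hK z hz
  have hn : (0:ℝ) ≤ (n:ℝ) := Nat.cast_nonneg n
  have hh1 : (0:ℝ) < 1 / ((n:ℝ) + 2) := by positivity
  have hh2 : 1 / ((n:ℝ) + 2) < 1 := by
    rw [div_lt_one (by positivity)]
    linarith
  refine ⟨layer ((fun x => x - z) '' K) (-(1 / ((n:ℝ) + 2))) (1 - 1 / ((n:ℝ) + 2))
      (fun s => (1 - 1 / ((n:ℝ) + 2)) + (-1) * s), 0, ?_, ?_, ?_⟩
  · exact isConvexBody_layer _ hK' h0' _ _ _ _ (by linarith) (by linarith) (by linarith)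
      (by intro s hs; linarith [hs.2])
  · exact zero_mem_interior_layer _ h0' _ _ _ _ (by linarith) (by linarith) (by linarith)
  · rw [image_sub_zero]
    have h := volume_pyramid_mul_polar_le ((fun x => x - z) '' K) hK' h0' (1 / ((n:ℝ) + 2))
      hh1 hh2
    rw [hvol] at h
    have e : 1 / (((n : ℝ) + 1) ^ 2 * (1 / ((n:ℝ) + 2)) * (1 - 1 / ((n:ℝ) + 2)) ^ (n + 1))
        = ((n : ℝ) + 2) ^ (n + 2) / ((n : ℝ) + 1) ^ (n + 3) := by
      have h3 : (1 - 1 / ((n:ℝ) + 2)) = ((n:ℝ) + 1) / ((n:ℝ) + 2) := by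
        field_simp
        ring
      rw [h3, div_pow]
      field_simp
      ring
    rw [e] at h
    exact h

end Vale.Agent.Lib.P248.Dim
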